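import Vale.Agent.P228.OscExamples

/-!
# P228: the conjecture of Hilbert and Smith for actions of small oscillation energy
-/

namespace Vale.Agent.Results.P228.OscillationEnergy

open scoped Manifold Topology ENNReal
open Metric MeasureTheory Vale.Agent.P228

/-- `SmallOsc μ f x` says that on some ball `B` around `x` the quantity `ρ` times the integral over
`B` of `(diam f(ball y ρ) / ρ) ^ n` tends to zero with `ρ`. If in charts every element acts with
this property near every point, then a faithfully acting compact totally disconnected group is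
finite, a locally compact one is discrete, and the `p`-adic integers have no such faithful action.
Locally Hölder maps with exponent `a`, `n (1 - a) < 1`, and injective maps which send small balls to
sets of volume comparable with the `n`-th power of their diameter have the property. -/
theorem result :
    (∀ (n : ℕ) (M : Type) [TopologicalSpace M] [T2Space M] [ConnectedSpace M]
        [ChartedSpace (EuclideanSpace ℝ (Fin n)) M]
        (G : Type) [Group G] [TopologicalSpace G] [IsTopologicalGroup G] [CompactSpace G]
        [TotallyDisconnectedSpace G] [MulAction G M] [ContinuousSMul G M] [FaithfulSMul G M],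
        (∀ g : G, SmallOscChart (M := M) n g) → Finite G) ∧
    (∀ (n : ℕ) (M : Type) [TopologicalSpace M] [T2Space M] [ConnectedSpace M]
        [ChartedSpace (EuclideanSpace ℝ (Fin n)) M]
        (G : Type) [Group G] [TopologicalSpace G] [IsTopologicalGroup G] [LocallyCompactSpace G]
        [TotallyDisconnectedSpace G] [MulAction G M] [ContinuousSMul G M] [FaithfulSMul G M],
        (∀ g : G, SmallOscChart (M := M) n g) → DiscreteTopology G) ∧
    (∀ (n : ℕ) (M : Type) [TopologicalSpace M] [T2Space M] [ConnectedSpace M]
        [ChartedSpace (EuclideanSpace ℝ (Fin n)) M]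
        (p : ℕ) [Fact p.Prime] [MulAction (Multiplicative ℤ_[p]) M]
        [ContinuousSMul (Multiplicative ℤ_[p]) M] [FaithfulSMul (Multiplicative ℤ_[p]) M],
        ¬ ∀ g : Multiplicative ℤ_[p], SmallOscChart (M := M) n g) ∧
    (∀ (n : ℕ) (f : EuclideanSpace ℝ (Fin n) → EuclideanSpace ℝ (Fin n))
        (x : EuclideanSpace ℝ (Fin n)) (R C a : ℝ),
        0 < R → 0 < a → (n : ℝ) * (1 - a) < 1 →
        (∀ y ∈ ball x R, ∀ y' ∈ ball x R, dist (f y) (f y') ≤ C * dist y y' ^ a) →
        SmallOsc volume f x) ∧
    (∀ (n : ℕ) (f : EuclideanSpace ℝ (Fin n) → EuclideanSpace ℝ (Fin n))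
        (x : EuclideanSpace ℝ (Fin n)) (R : ℝ) (c : NNReal),
        0 < R → ContinuousOn f (closedBall x R) → Set.InjOn f (closedBall x R) →
        (∀ y ρ, 0 < ρ → closedBall y ρ ⊆ closedBall x R →
          ediam (f '' ball y ρ) ^ n ≤ c * volume (f '' ball y ρ)) →
        SmallOsc volume f x) := by
  refine ⟨?_, ?_, ?_, ?_, ?_⟩
  · intro n M _ _ _ _ G _ _ _ _ _ _ _ _ hd
    exact finite_of_osc hd
  · intro n M _ _ _ _ G _ _ _ _ _ _ _ _ hd
    exact discrete_of_osc hd
  · intro n M _ _ _ _ p _ _ _ _
    exact not_padicInt_osc p
  · intro n f x R C a hR ha hna hf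
    exact smallOsc_of_hoelder volume hR ha (by simpa using hna) hf
  · intro n f x R c hR hf hinj h
    exact smallOsc_of_roundBalls volume hR hf hinj (by simpa using h)

end Vale.Agent.Results.P228.OscillationEnergy
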