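import Vale.Agent.P228.HolManifold

/-!
# P228: the conjecture of Hilbert and Smith for pointwise Hölder actions
-/

namespace Vale.Agent.Results.P228.PointwiseHolder

open scoped Manifold Topology
open Asymptotics Vale.Agent.P228

/-- `HolAtChart n g x` says that `g • y - g • x = O(|y - x| ^ a)` in charts as `y` tends to `x`, for
some exponent `a > 0` with `n * (1 - a) < 1`. On a connected manifold of any dimension `n`, let
every element act so that this holds at each point (exponent and constant may depend on `g` and
`x`). Then a faithfully acting compact totally disconnected group is finite, a locally compact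
totally disconnected one is discrete, and the `p`-adic integers have no such faithful action. Every
map which is pointwise Lipschitz at a point, or differentiable there, satisfies the condition. -/
theorem result :
    (∀ (n : ℕ) (M : Type) [TopologicalSpace M] [T2Space M] [ConnectedSpace M]
        [ChartedSpace (EuclideanSpace ℝ (Fin n)) M] [IsManifold (𝓡 n) 1 M]
        (G : Type) [Group G] [TopologicalSpace G] [IsTopologicalGroup G] [CompactSpace G]
        [TotallyDisconnectedSpace G] [MulAction G M] [ContinuousSMul G M] [FaithfulSMul G M],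
        (∀ (g : G) (x : M), HolAtChart n g x) → Finite G) ∧
    (∀ (n : ℕ) (M : Type) [TopologicalSpace M] [T2Space M] [ConnectedSpace M]
        [ChartedSpace (EuclideanSpace ℝ (Fin n)) M] [IsManifold (𝓡 n) 1 M]
        (G : Type) [Group G] [TopologicalSpace G] [IsTopologicalGroup G] [LocallyCompactSpace G]
        [TotallyDisconnectedSpace G] [MulAction G M] [ContinuousSMul G M] [FaithfulSMul G M],
        (∀ (g : G) (x : M), HolAtChart n g x) → DiscreteTopology G) ∧
    (∀ (n : ℕ) (M : Type) [TopologicalSpace M] [T2Space M] [ConnectedSpace M]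
        [ChartedSpace (EuclideanSpace ℝ (Fin n)) M] [IsManifold (𝓡 n) 1 M]
        (p : ℕ) [Fact p.Prime] [MulAction (Multiplicative ℤ_[p]) M]
        [ContinuousSMul (Multiplicative ℤ_[p]) M] [FaithfulSMul (Multiplicative ℤ_[p]) M],
        ¬ ∀ (g : Multiplicative ℤ_[p]) (x : M), HolAtChart n g x) ∧
    (∀ (n : ℕ) (M : Type) [TopologicalSpace M] [ChartedSpace (EuclideanSpace ℝ (Fin n)) M]
        [IsManifold (𝓡 n) 1 M] (G : Type) [Group G] [MulAction G M] (g : G) (x : M),
        ((fun y : M => chartAt (EuclideanSpace ℝ (Fin n)) (g • x) (g • y) -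
              chartAt (EuclideanSpace ℝ (Fin n)) (g • x) (g • x)) =O[𝓝 x]
            fun y : M => chartAt (EuclideanSpace ℝ (Fin n)) x y -
              chartAt (EuclideanSpace ℝ (Fin n)) x x) ∨
          MDifferentiableAt (𝓡 n) (𝓡 n) (fun y : M => g • y) x →
        HolAtChart n g x) := by
  refine ⟨?_, ?_, ?_, ?_⟩
  · intro n M _ _ _ _ _ G _ _ _ _ _ _ _ _ hd
    exact finite_of_hol hd
  · intro n M _ _ _ _ _ G _ _ _ _ _ _ _ _ hd
    exact discrete_of_hol hd
  · intro n M _ _ _ _ _ p _ _ _ _
    exact not_padicInt_hol p
  · intro n M _ _ _ G _ _ g x h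
    rcases h with h | h
    · exact holAtChart_of_isBigO h
    · exact holAtChart_of_mdifferentiableAt h

end Vale.Agent.Results.P228.PointwiseHolder
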